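import Mathlib
import Vale.Agent.P184.Defs
import Vale.Agent.P184.Amenable
import Vale.Agent.P184.Induced

/-!
Vanishing of Hattori-Stallings coefficients of idempotents over `ℓ¹(G)` at undistorted classes.
-/

namespace Vale.Agent.Results.P184.UndistortedClasses

open Vale.Agent.P184

universe u v

theorem result :
    (∀ (G : Type u) [Group G] (q : ℕ) (e : IdemMatrix G q) (H : Subgroup G),
      H.FiniteIndex → ∀ (ψ : H →* Multiplicative ℝ) (h : H), ψ h ≠ 1 →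
      tau e (ConjClasses.mk (h : G)) = 0) ∧
    (∀ (G : Type u) [Group G] (q d : ℕ) (e : IdemMatrix G q)
      (ρ : ℝ → (G →* Matrix (Fin d) (Fin d) ℂ)) (M : ℝ),
      (∀ t g a b, ‖ρ t g a b‖ ≤ M) → (∀ g, Continuous fun t => ρ t g) →
      ∀ g : G, ((ρ 1 g).trace - (ρ 0 g).trace) * tau e (ConjClasses.mk g) = 0) ∧
    (∀ (G : Type u) [Group G] (q : ℕ) (e : IdemMatrix G q) (h : G) (L φ : G → ℝ),
      (∀ x y, L (x * y) ≤ L x + L y) →
      (∀ z w, z * h = h * z → w * h = h * w → φ (z * w) = φ z + φ w) →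
      (∀ z, z * h = h * z → |φ z| ≤ L z) → φ h ≠ 0 →
      tau e (ConjClasses.mk h) = 0) ∧
    (∀ (G : Type u) [Group G] (q : ℕ) (e : IdemMatrix G q) (h : G) (L : G → ℝ) (c : ℝ),
      (∀ g, 0 ≤ L g) → (∀ x y, L (x * y) ≤ L x + L y) → 0 < c →
      (∀ n : ℕ, c * n ≤ L (h ^ n)) →
      (∀ K : Finset G, (∀ z ∈ K, z * h = h * z) → ∀ ε : ℝ, 0 < ε →
        ∃ D : Finset G, D.Nonempty ∧ (∀ w ∈ D, w * h = h * w) ∧
          ∀ z ∈ K, (Set.ncard {w | w ∈ D ∧ z * w ∉ D} : ℝ) ≤ ε * D.card) →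
      tau e (ConjClasses.mk h) = 0) ∧
    (∀ (G : Type u) [Group G] (q : ℕ) (e : IdemMatrix G q) (h : G)
      (X : Type v) [PseudoMetricSpace X] [MulAction G X] [Nonempty X] (B : X → ℝ) (φ : G → ℝ),
      (∀ (g : G) (x y : X), dist (g • x) (g • y) = dist x y) →
      (∀ x y, |B x - B y| ≤ dist x y) →
      (∀ z, z * h = h * z → ∀ x, B (z • x) = B x + φ z) → φ h ≠ 0 →
      tau e (ConjClasses.mk h) = 0) ∧
    (∀ (G : Type u) [Group G],
      (∀ h : G, ¬ IsOfFinOrder h →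
        (∃ L φ : G → ℝ, (∀ x y, L (x * y) ≤ L x + L y) ∧
          (∀ z w, z * h = h * z → w * h = h * w → φ (z * w) = φ z + φ w) ∧
          (∀ z, z * h = h * z → |φ z| ≤ L z) ∧ φ h ≠ 0) ∨
        (∃ (L : G → ℝ) (c : ℝ), (∀ g, 0 ≤ L g) ∧ (∀ x y, L (x * y) ≤ L x + L y) ∧ 0 < c ∧
          (∀ n : ℕ, c * n ≤ L (h ^ n)) ∧
          ∀ K : Finset G, (∀ z ∈ K, z * h = h * z) → ∀ ε : ℝ, 0 < ε →
            ∃ D : Finset G, D.Nonempty ∧ (∀ w ∈ D, w * h = h * w) ∧
              ∀ z ∈ K, (Set.ncard {w | w ∈ D ∧ z * w ∉ D} : ℝ) ≤ ε * D.card)) →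
      {C : ConjClasses G | ∀ g ∈ C.carrier, IsOfFinOrder g}.Finite →
      ∀ (q : ℕ) (e : IdemMatrix G q), ∃ F : Finset (ConjClasses G),
        (∀ C ∈ F, ∀ g ∈ C.carrier, IsOfFinOrder g) ∧ ∀ C ∉ F, tau e C = 0) := by
  refine ⟨fun G _ q e H hH ψ h hh => by
      classical
      have : Fintype (G ⧸ H) := @Fintype.ofFinite _ Subgroup.finite_quotient_of_finiteIndex
      exact finiteIndex_vanishing H e ψ h hh,
    fun G _ q d e ρ M hM hc g => path_vanishing e ρ M hM hc g,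
    fun G _ q e h L φ hL ha hb hφ => length_vanishing e h L φ hL ha hb hφ,
    fun G _ q e h L c hL0 hL hc htr hfol => ?_,
    fun G _ q e h X _ _ _ B φ hiso hB heq hφ => ?_, ?_⟩
  · obtain ⟨L', φ, h1, h2, h3, h4⟩ := exists_char_of_amenable h L hL0 hL c hc htr hfol
    exact length_vanishing e h L' φ h1 h2 h3 h4
  · obtain ⟨o⟩ := (inferInstance : Nonempty X)
    refine length_vanishing e h (fun g => dist o (g • o)) φ (fun x y => ?_) (fun z w hz hw => ?_)
      (fun z hz => ?_) hφ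
    · refine (dist_triangle o (x • o) ((x * y) • o)).trans_eq ?_
      rw [mul_smul, hiso]
    · have h1 := heq (z * w) (Commute.mul_left (hz : Commute z h) (hw : Commute w h)) o
      rw [mul_smul, heq z hz, heq w hw] at h1
      linarith
    · have h1 := hB (z • o) o
      rw [heq z hz, add_sub_cancel_left, dist_comm] at h1
      exact h1
  · intro G _ hdet hfin q e
    refine ⟨hfin.toFinset, fun C hC => (Set.Finite.mem_toFinset hfin).1 hC, fun C hC => ?_⟩
    rw [Set.Finite.mem_toFinset, Set.mem_ofPred_eq] at hC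
    push Not at hC
    obtain ⟨g, hg, hgt⟩ := hC
    rw [ConjClasses.mem_carrier_iff_mk_eq] at hg
    subst hg
    rcases hdet g hgt with ⟨L, φ, h1, h2, h3, h4⟩ | ⟨L, c, h0, h1, h2, h3, h4⟩
    · exact length_vanishing e g L φ h1 h2 h3 h4
    · obtain ⟨L', φ, g1, g2, g3, g4⟩ := exists_char_of_amenable g L h0 h1 c h2 h3 h4
      exact length_vanishing e g L' φ g1 g2 g3 g4

end Vale.Agent.Results.P184.UndistortedClasses
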